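import Mathlib

/-!
Small triangles in planar sets with few sums: short differences are popular, and many translates
of one short segment give two nearly collinear segments.
-/

namespace Vale.Agent.P036

open Finset
open scoped Pointwise

/-- The area of the triangle `pqr`. -/
noncomputable def area (p q r : ℝ × ℝ) : ℝ :=
  |(q.1 - p.1) * (r.2 - p.2) - (q.2 - p.2) * (r.1 - p.1)| / 2

/-- Points of the closed unit square. -/
def InSquare (P : Finset (ℝ × ℝ)) : Prop :=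
  ∀ p ∈ P, (0 ≤ p.1 ∧ p.1 ≤ 1) ∧ (0 ≤ p.2 ∧ p.2 ≤ 1)

/-- Some three distinct points of `P` span area at most `t`, that is `Δ(P) ≤ t`. -/
def HasTriangle (P : Finset (ℝ × ℝ)) (t : ℝ) : Prop :=
  ∃ p ∈ P, ∃ q ∈ P, ∃ r ∈ P, p ≠ q ∧ p ≠ r ∧ q ≠ r ∧ area p q r ≤ t

theorem HasTriangle.mono {P Q : Finset (ℝ × ℝ)} {s t : ℝ} (h : HasTriangle P s) (hPQ : P ⊆ Q)
    (hst : s ≤ t) : HasTriangle Q t := by
  obtain ⟨p, hp, q, hq, r, hr, h1, h2, h3, h4⟩ := h
  exact ⟨p, hPQ hp, q, hPQ hq, r, hPQ hr, h1, h2, h3, h4.trans hst⟩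

theorem area_le_box {p q r : ℝ × ℝ} {s : ℝ} (h1 : |q.1 - p.1| ≤ s) (h2 : |q.2 - p.2| ≤ s)
    (h3 : |r.1 - p.1| ≤ s) (h4 : |r.2 - p.2| ≤ s) : area p q r ≤ s ^ 2 := by
  have hs : 0 ≤ s := (abs_nonneg _).trans h1
  unfold area
  have e := abs_sub ((q.1 - p.1) * (r.2 - p.2)) ((q.2 - p.2) * (r.1 - p.1))
  rw [abs_mul, abs_mul] at e
  nlinarith [mul_le_mul h1 h4 (abs_nonneg _) hs, mul_le_mul h2 h3 (abs_nonneg _) hs]

theorem trivial_triangle {P : Finset (ℝ × ℝ)} (hP : InSquare P) (h3 : 3 ≤ P.card) :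
    HasTriangle P 1 := by
  obtain ⟨p, q, r, hp, hq, hr, h1, h2, h3⟩ := Finset.two_lt_card_iff.1 (show 2 < P.card by omega)
  refine ⟨p, hp, q, hq, r, hr, h1, h2, h3, ?_⟩
  obtain ⟨⟨a1, a2⟩, ⟨a3, a4⟩⟩ := hP p hp
  obtain ⟨⟨b1, b2⟩, ⟨b3, b4⟩⟩ := hP q hq
  obtain ⟨⟨c1, c2⟩, ⟨c3, c4⟩⟩ := hP r hr
  refine (area_le_box (s := 1) ?_ ?_ ?_ ?_).trans (by norm_num)
  all_goals (rw [abs_le]; constructor <;> linarith)

/-- The grid cell of a point, at scale `1 / k`. -/
noncomputable def cell (k : ℕ) (p : ℝ × ℝ) : ℕ × ℕ := (⌊p.1 * k⌋₊, ⌊p.2 * k⌋₊)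

theorem floor_close {k : ℕ} (hk : 0 < k) {a b : ℝ} (ha : 0 ≤ a) (hb : 0 ≤ b)
    (h : ⌊a * k⌋₊ = ⌊b * k⌋₊) : |b - a| < 1 / k := by
  have hk' : (0 : ℝ) < k := by exact_mod_cast hk
  have h1 := Nat.floor_le (show 0 ≤ a * k by positivity)
  have h2 := Nat.lt_floor_add_one (a * k)
  have h3 := Nat.floor_le (show 0 ≤ b * k by positivity)
  have h4 := Nat.lt_floor_add_one (b * k)
  rw [h] at h1 h2
  rw [lt_div_iff₀ hk', ← abs_of_pos hk', ← abs_mul, abs_lt]
  constructor <;> nlinarith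

theorem cell_close {k : ℕ} (hk : 0 < k) {P : Finset (ℝ × ℝ)} (hP : InSquare P) {p q : ℝ × ℝ}
    (hp : p ∈ P) (hq : q ∈ P) (h : cell k p = cell k q) :
    |q.1 - p.1| < 1 / k ∧ |q.2 - p.2| < 1 / k :=
  ⟨floor_close hk (hP p hp).1.1 (hP q hq).1.1 (congrArg Prod.fst h),
    floor_close hk (hP p hp).2.1 (hP q hq).2.1 (congrArg Prod.snd h)⟩

theorem cell_mem {k : ℕ} {P : Finset (ℝ × ℝ)} (hP : InSquare P) {p : ℝ × ℝ} (hp : p ∈ P) :
    cell k p ∈ range (k + 1) ×ˢ range (k + 1) := by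
  have key : ∀ a : ℝ, a ≤ 1 → ⌊a * k⌋₊ < k + 1 := by
    intro a ha
    refine Nat.lt_succ_of_le (Nat.floor_le_of_le ?_)
    nlinarith [Nat.cast_nonneg (α := ℝ) k]
  exact mem_product.2 ⟨mem_range.2 (key _ (hP p hp).1.2), mem_range.2 (key _ (hP p hp).2.2)⟩

/-- Three points in one cell. -/
theorem cell_triangle {k : ℕ} (hk : 0 < k) {P : Finset (ℝ × ℝ)} (hP : InSquare P)
    (h : (k + 1) * (k + 1) * 2 < P.card) : HasTriangle P ((1 / k) ^ 2) := by
  obtain ⟨c, -, hc⟩ := exists_lt_card_fiber_of_mul_lt_card_of_maps_to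
    (fun p hp => cell_mem (k := k) hP hp) (by simpa using h)
  obtain ⟨p, q, r, hp, hq, hr, h1, h2, h3⟩ := Finset.two_lt_card_iff.1 hc
  rw [mem_filter] at hp hq hr
  have e1 := cell_close hk hP hp.1 hq.1 (hp.2.trans hq.2.symm)
  have e2 := cell_close hk hP hp.1 hr.1 (hp.2.trans hr.2.symm)
  exact ⟨p, hp.1, q, hq.1, r, hr.1, h1, h2, h3,
    area_le_box e1.1.le e1.2.le e2.1.le e2.2.le⟩

/-- Some short vector is a difference of many pairs. -/
theorem popular_short {k : ℕ} (hk : 0 < k) {P : Finset (ℝ × ℝ)} (hP : InSquare P) {L : ℝ}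
    (hne : P.Nonempty) (hcells : (k + 1) * (k + 1) * 2 ≤ P.card)
    (hL : ((P + P - P).card : ℝ) ≤ L * P.card) :
    ∃ v : ℝ × ℝ, v ≠ 0 ∧ |v.1| < 1 / k ∧ |v.2| < 1 / k ∧
      (P.card : ℝ) ≤ 18 * L * ((P.filter fun x => x + v ∈ P).card : ℝ) := by
  classical
  set J := P.image (cell k) with hJ
  set T := (P ×ˢ P).filter fun z => z.1 ≠ z.2 ∧ cell k z.1 = cell k z.2 with hT
  set D := T.image fun z => z.2 - z.1 with hD
  set n := P.card with hn
  have hn0 : 0 < n := hne.card_pos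
  -- pairs in common cells
  have hJ2 : J.card * 2 ≤ n := by
    refine le_trans (Nat.mul_le_mul_right 2 ?_) hcells
    refine (card_le_card (fun c hc => ?_)).trans (le_of_eq (by simp :
      (range (k + 1) ×ˢ range (k + 1)).card = (k + 1) * (k + 1)))
    obtain ⟨p, hp, rfl⟩ := mem_image.1 hc
    exact cell_mem hP hp
  have hsum : n = ∑ c ∈ J, (P.filter fun p => cell k p = c).card :=
    card_eq_sum_card_fiberwise fun p hp => mem_image_of_mem _ hp
  have hCS : n ^ 2 ≤ J.card * (T.card + n) := by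
    have h1 := sq_sum_le_card_mul_sum_sq (s := J)
      (f := fun c => (P.filter fun p => cell k p = c).card)
    rw [← hsum] at h1
    refine h1.trans (Nat.mul_le_mul_left _ ?_)
    have h2 : ∑ c ∈ J, (P.filter fun p => cell k p = c).card ^ 2 =
        ((P ×ˢ P).filter fun z => cell k z.1 = cell k z.2).card := by
      rw [card_eq_sum_card_fiberwise (f := fun z : (ℝ × ℝ) × (ℝ × ℝ) => cell k z.1) (t := J)
        (fun z hz => mem_image_of_mem _ (mem_product.1 (mem_filter.1 hz).1).1)]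
      refine sum_congr rfl fun c _ => ?_
      rw [sq, ← card_product]
      congr 1
      ext z
      simp only [mem_product, mem_filter]
      constructor
      · rintro ⟨⟨a, b⟩, ⟨c', d⟩⟩
        exact ⟨⟨⟨a, c'⟩, b.trans d.symm⟩, b⟩
      · rintro ⟨⟨⟨a, c'⟩, e⟩, b⟩
        exact ⟨⟨a, b⟩, ⟨c', e.symm.trans b⟩⟩
    rw [h2]
    refine le_trans (card_le_card (t := T ∪ P.diag) fun z hz => ?_) ((card_union_le _ _).trans ?_)
    · obtain ⟨hz1, hz2⟩ := mem_filter.1 hz
      rcases eq_or_ne z.1 z.2 with he | he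
      · exact mem_union_right _ (mem_diag.2 ⟨(mem_product.1 hz1).1, he⟩)
      · exact mem_union_left _ (mem_filter.2 ⟨hz1, he, hz2⟩)
    · rw [diag_card]
  have hDT : T.Nonempty := by
    rw [nonempty_iff_ne_empty]
    intro h0
    rw [h0, card_empty, zero_add, sq] at hCS
    have := Nat.le_of_mul_le_mul_right hCS hn0
    omega
  -- disjointness of translates
  choose b hb hbc using fun c (hc : c ∈ J) => mem_image.1 hc
  have hDsmall : ∀ d ∈ D, d ≠ 0 ∧ |d.1| < 1 / k ∧ |d.2| < 1 / k ∧ d ∈ P - P := by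
    intro d hd
    obtain ⟨z, hz, rfl⟩ := mem_image.1 hd
    obtain ⟨hzP, hne', hc⟩ := mem_filter.1 hz
    obtain ⟨h1, h2⟩ := mem_product.1 hzP
    exact ⟨sub_ne_zero.2 hne'.symm, (cell_close hk hP h1 h2 hc).1, (cell_close hk hP h1 h2 hc).2,
      sub_mem_sub h2 h1⟩
  have hk' : (0 : ℝ) < k := by exact_mod_cast hk
  have hnear : ∀ a w : ℝ, |w - a| < 1 / k →
      ⌊a * k⌋₊ ∈ Icc ⌊w * k - 1⌋₊ (⌊w * k - 1⌋₊ + 2) := by
    intro a w h
    obtain ⟨h1, h2⟩ := abs_lt.1 h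
    rw [lt_div_iff₀ hk'] at h2
    rw [neg_lt, neg_sub, lt_div_iff₀ hk'] at h1
    refine mem_Icc.2 ⟨Nat.floor_mono (by nlinarith), ?_⟩
    have e := Nat.lt_floor_add_one (w * k - 1)
    refine Nat.lt_succ_iff.1 ((Nat.floor_lt' (by omega)).2 ?_)
    push_cast
    nlinarith
  have hJD : J.card * D.card ≤ 9 * (P + P - P).card := by
    rw [← card_product, ← card_attach (s := J ×ˢ D)]
    refine card_le_mul_card_image_of_maps_to
      (f := fun z : {z // z ∈ J ×ˢ D} => b z.1.1 (mem_product.1 z.2).1 + z.1.2)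
      (fun z _ => ?_) 9 (fun w _ => ?_)
    · obtain ⟨x, hx, y, hy, e⟩ := mem_sub.1 (hDsmall _ (mem_product.1 z.2).2).2.2.2
      convert sub_mem_sub (add_mem_add (hb z.1.1 (mem_product.1 z.2).1) hx) hy using 1
      rw [add_sub_assoc, e]
    · refine le_trans (card_le_card_of_injOn (fun z => z.1.1)
        (t := Icc ⌊w.1 * k - 1⌋₊ (⌊w.1 * k - 1⌋₊ + 2) ×ˢ
          Icc ⌊w.2 * k - 1⌋₊ (⌊w.2 * k - 1⌋₊ + 2)) (fun z hz => ?_) ?_) ?_
      · simp only [coe_filter, Set.mem_ofPred_eq] at hz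
        obtain ⟨-, d1, d2, -⟩ := hDsmall _ (mem_product.1 z.2).2
        have e : cell k (b z.1.1 (mem_product.1 z.2).1) = z.1.1 := hbc _ _
        have e1 : |w.1 - (b z.1.1 (mem_product.1 z.2).1).1| < 1 / k := by
          rw [← hz.2, Prod.fst_add, add_sub_cancel_left]; exact d1
        have e2 : |w.2 - (b z.1.1 (mem_product.1 z.2).1).2| < 1 / k := by
          rw [← hz.2, Prod.snd_add, add_sub_cancel_left]; exact d2
        have e3 : cell k (b z.1.1 (mem_product.1 z.2).1) ∈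
            Icc ⌊w.1 * k - 1⌋₊ (⌊w.1 * k - 1⌋₊ + 2) ×ˢ Icc ⌊w.2 * k - 1⌋₊ (⌊w.2 * k - 1⌋₊ + 2) :=
          mem_product.2 ⟨hnear _ _ e1, hnear _ _ e2⟩
        rw [e] at e3
        exact mem_coe.2 e3
      · intro z hz z' hz' e
        simp only [coe_filter, Set.mem_ofPred_eq] at hz hz'
        have h1 := hz.2.trans hz'.2.symm
        obtain ⟨⟨c, d⟩, hm⟩ := z
        obtain ⟨⟨c', d'⟩, hm'⟩ := z'
        simp only at e h1
        subst e
        simp only [add_right_inj] at h1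
        subst h1
        rfl
      · rw [card_product, Nat.card_Icc, Nat.card_Icc]
        have h3 : ∀ a : ℕ, a + 2 + 1 - a = 3 := fun a => by omega
        rw [h3, h3]
  -- the popular vector
  obtain ⟨v, hv, hmax⟩ := exists_max_image D
    (fun d => (T.filter fun z => z.2 - z.1 = d).card) (hDT.image _)
  obtain ⟨hv0, hv1, hv2, -⟩ := hDsmall v hv
  refine ⟨v, hv0, hv1, hv2, ?_⟩
  set r := (P.filter fun x => x + v ∈ P).card with hr
  have hTr : T.card ≤ D.card * r := by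
    rw [card_eq_sum_card_fiberwise (f := fun z : (ℝ × ℝ) × (ℝ × ℝ) => z.2 - z.1) (t := D)
      (fun z hz => mem_image_of_mem _ hz)]
    refine (sum_le_card_nsmul _ _ _ fun d hd => hmax d hd).trans ?_
    rw [smul_eq_mul]
    refine Nat.mul_le_mul_left _ (card_le_card_of_injOn Prod.fst (fun z hz => ?_) ?_)
    · simp only [coe_filter, Set.mem_ofPred_eq] at hz
      obtain ⟨h1, h2⟩ := mem_product.1 (mem_filter.1 hz.1).1
      exact mem_filter.2 ⟨h1, by rw [← hz.2, add_sub_cancel]; exact h2⟩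
    · intro z hz z' hz' e
      simp only [coe_filter, Set.mem_ofPred_eq] at hz hz'
      refine Prod.ext e ?_
      have := hz.2.trans hz'.2.symm
      rw [e] at this
      exact sub_left_injective this
  have h9 : (n : ℝ) ^ 2 ≤ 18 * L * n * r := by
    have a1 : n ^ 2 ≤ 2 * (J.card * T.card) := by nlinarith
    have a2 : J.card * T.card ≤ 9 * (P + P - P).card * r :=
      (Nat.mul_le_mul_left _ hTr).trans (by rw [← mul_assoc]; exact Nat.mul_le_mul_right _ hJD)
    have a3 : (n : ℝ) ^ 2 ≤ 18 * ((P + P - P).card : ℝ) * r := by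
      exact_mod_cast le_trans a1 (le_of_le_of_eq (Nat.mul_le_mul_left 2 a2) (by ring))
    refine a3.trans (le_of_le_of_eq (mul_le_mul_of_nonneg_right
      (mul_le_mul_of_nonneg_left hL (by norm_num)) (Nat.cast_nonneg _)) (by ring))
  have hn' : (0 : ℝ) < n := by exact_mod_cast hn0
  nlinarith

/-- Many translates of one short segment give a small triangle. -/
theorem segment_triangle {P : Finset (ℝ × ℝ)} (hP : InSquare P) {v : ℝ × ℝ} {s : ℝ}
    (hv : v ≠ 0) (h1 : |v.1| < s) (h2 : |v.2| < s)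
    (hF : 3 ≤ (P.filter fun x => x + v ∈ P).card) :
    HasTriangle P (4 * s / (P.filter fun x => x + v ∈ P).card) := by
  classical
  set F := P.filter fun x => x + v ∈ P with hFdef
  set φ : ℝ × ℝ → ℝ := fun x => v.1 * x.2 - v.2 * x.1 with hφ
  have hs : 0 < s := lt_of_le_of_lt (abs_nonneg _) h1
  set N := (F.card - 1) / 2 with hN
  have hN0 : 0 < N := by omega
  have hN' : (0 : ℝ) < N := by exact_mod_cast hN0
  set w : ℝ := 2 * s / N with hw
  have hw0 : 0 < w := by positivity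
  obtain ⟨lo, hlo⟩ : ∃ lo, ∀ x ∈ F, 0 ≤ φ x - lo ∧ φ x - lo < 2 * s := by
    refine ⟨(Finset.min' (F.image φ) ((card_pos.1 (by omega)).image _)), fun x hx => ?_⟩
    refine ⟨sub_nonneg.2 (min'_le _ _ (mem_image_of_mem _ hx)), ?_⟩
    obtain ⟨y, hy, hye⟩ := mem_image.1
      (min'_mem (F.image φ) ((card_pos.1 (show 0 < F.card by omega)).image _))
    rw [← hye]
    obtain ⟨⟨a1, a2⟩, a3, a4⟩ := hP x (mem_filter.1 hx).1
    obtain ⟨⟨b1, b2⟩, b3, b4⟩ := hP y (mem_filter.1 hy).1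
    have e := abs_sub (v.1 * (x.2 - y.2)) (v.2 * (x.1 - y.1))
    rw [abs_mul, abs_mul] at e
    have e1 : |x.2 - y.2| ≤ 1 := abs_le.2 ⟨by linarith, by linarith⟩
    have e2 : |x.1 - y.1| ≤ 1 := abs_le.2 ⟨by linarith, by linarith⟩
    have e3 := mul_le_of_le_one_right (abs_nonneg v.1) e1
    have e4 := mul_le_of_le_one_right (abs_nonneg v.2) e2
    calc φ x - φ y ≤ |v.1 * (x.2 - y.2) - v.2 * (x.1 - y.1)| := by
          refine le_of_eq_of_le ?_ (le_abs_self _)
          simp only [hφ]; ring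
      _ < 2 * s := by linarith
  obtain ⟨j, -, hj⟩ := exists_lt_card_fiber_of_mul_lt_card_of_maps_to
    (f := fun x => ⌊(φ x - lo) / w⌋₊) (s := F) (t := range N) (n := 2)
    (fun x hx => mem_range.2 ((Nat.floor_lt (by have := (hlo x hx).1; positivity)).2
      (by
        rw [div_lt_iff₀ hw0, hw, mul_div_cancel₀ _ hN'.ne']
        exact (hlo x hx).2)))
    (by rw [card_range]; omega)
  obtain ⟨x, y, y', hx, hy, hy', hxy, hxy', hyy'⟩ := Finset.two_lt_card_iff.1 hj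
  obtain ⟨z, hz, hzx, hzv⟩ : ∃ z ∈ F.filter (fun u => ⌊(φ u - lo) / w⌋₊ = j),
      x ≠ z ∧ x + v ≠ z := by
    rcases eq_or_ne (x + v) y with h | h
    · exact ⟨y', hy', hxy', fun h' => hyy' (h.symm.trans h')⟩
    · exact ⟨y, hy, hxy, h⟩
  obtain ⟨hxF, hxj⟩ := mem_filter.1 hx
  obtain ⟨hzF, hzj⟩ := mem_filter.1 hz
  obtain ⟨hxP, hxvP⟩ := mem_filter.1 hxF
  refine ⟨x, hxP, x + v, hxvP, z, (mem_filter.1 hzF).1, by simpa using hv, hzx, hzv, ?_⟩
  have hclose : |φ z - φ x| < w := by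
    have a1 := Nat.floor_le (div_nonneg (hlo x hxF).1 hw0.le)
    have a2 := Nat.lt_floor_add_one ((φ x - lo) / w)
    have a3 := Nat.floor_le (div_nonneg (hlo z hzF).1 hw0.le)
    have a4 := Nat.lt_floor_add_one ((φ z - lo) / w)
    rw [hxj, le_div_iff₀ hw0] at a1
    rw [hxj, div_lt_iff₀ hw0] at a2
    rw [hzj, le_div_iff₀ hw0] at a3
    rw [hzj, div_lt_iff₀ hw0] at a4
    exact abs_lt.2 ⟨by linarith, by linarith⟩
  have harea : area x (x + v) z = |φ z - φ x| / 2 := by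
    simp only [area, hφ, Prod.fst_add, Prod.snd_add, add_sub_cancel_left]
    ring_nf
  rw [harea]
  have hN4 : (F.card : ℝ) ≤ 4 * N := by exact_mod_cast (show F.card ≤ 4 * N by omega)
  have hF0 : (0 : ℝ) < F.card := by exact_mod_cast (show 0 < F.card by omega)
  have : w / 2 ≤ 4 * s / F.card := by
    rw [hw, div_div, div_le_div_iff₀ (by positivity) hF0]
    nlinarith
  linarith

/-- Few sums give a small triangle. -/
theorem triangle_of_sums {P : Finset (ℝ × ℝ)} (hP : InSquare P) (h3 : 3 ≤ P.card) {L : ℝ}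
    (hL1 : 1 ≤ L) (hL : ((P + P - P).card : ℝ) ≤ L * P.card) :
    HasTriangle P (600 * L / (P.card * Real.sqrt P.card)) := by
  classical
  set n := P.card with hn
  set s := Real.sqrt n with hs
  have hn' : (0 : ℝ) < n := by exact_mod_cast (show 0 < n by omega)
  have hs0 : 0 < s := Real.sqrt_pos.2 hn'
  have hss : s * s = n := Real.mul_self_sqrt hn'.le
  rcases lt_or_ge n 64 with hsmall | hbig
  · refine (trivial_triangle hP h3).mono (Subset.refl _) ?_
    rw [le_div_iff₀ (by positivity)]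
    have h8 : s ≤ 8 := by
      rw [hs, Real.sqrt_le_iff]
      exact ⟨by norm_num, by
        have : (n : ℝ) ≤ 64 := by exact_mod_cast hsmall.le
        norm_num; linarith⟩
    have : (n : ℝ) ≤ 64 := by exact_mod_cast hsmall.le
    nlinarith
  have h8 : (8 : ℝ) ≤ s := by
    rw [hs]
    refine Real.le_sqrt_of_sq_le ?_
    have : (64 : ℝ) ≤ n := by exact_mod_cast hbig
    norm_num; linarith
  set k := ⌊s / 2⌋₊ - 1 with hk
  have hf1 := Nat.floor_le (show 0 ≤ s / 2 by positivity)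
  have hf2 := Nat.lt_floor_add_one (s / 2)
  have hf4 : 4 ≤ ⌊s / 2⌋₊ := Nat.le_floor (by push_cast; linarith)
  have hk1 : (k : ℝ) + 1 = (⌊s / 2⌋₊ : ℝ) := by
    rw [hk, Nat.cast_sub (by omega)]; simp
  have hk0 : 0 < k := by omega
  have hk' : (0 : ℝ) < k := by exact_mod_cast hk0
  have hks : s / 4 ≤ k := by linarith
  have hcells : (k + 1) * (k + 1) * 2 < n := by
    have : ((k : ℝ) + 1) * ((k : ℝ) + 1) * 2 < n := by nlinarith
    exact_mod_cast this
  obtain ⟨v, hv0, hv1, hv2, hr⟩ := popular_short hk0 hP (card_pos.1 (by omega)) hcells.le hL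
  set r := (P.filter fun x => x + v ∈ P).card with hrdef
  rcases lt_or_ge r 3 with hr3 | hr3
  · refine (cell_triangle hk0 hP hcells).mono (Subset.refl _) ?_
    have : (r : ℝ) ≤ 2 := by exact_mod_cast Nat.lt_succ_iff.1 hr3
    have hLn : (n : ℝ) ≤ 36 * L := hr.trans (by nlinarith)
    rw [one_div, inv_pow, le_div_iff₀ (by positivity), inv_mul_le_iff₀ (by positivity)]
    have hk2 : s * s / 16 ≤ (k : ℝ) ^ 2 := by nlinarith
    have hsL : s ≤ 36 * L := le_trans (by nlinarith) hLn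
    rw [hss] at hk2
    nlinarith [mul_le_mul_of_nonneg_left hk2 (show 0 ≤ 600 * L by positivity),
      mul_le_mul_of_nonneg_left hsL hn'.le]
  · refine (segment_triangle hP hv0 hv1 hv2 hr3).mono (Subset.refl _) ?_
    have hr0 : (0 : ℝ) < r := by exact_mod_cast (show 0 < r by omega)
    rw [← hrdef, mul_one_div, div_div, div_le_div_iff₀ (by positivity) (by positivity)]
    have a1 : (n : ℝ) * s ≤ 18 * L * r * (4 * k) :=
      mul_le_mul hr (by linarith) hs0.le (by positivity)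
    nlinarith [mul_nonneg (mul_nonneg (show (0:ℝ) ≤ L by linarith) hr0.le) hk'.le]

end Vale.Agent.P036
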