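import Mathlib
import Vale.Agent.P041.BSG
import Vale.Agent.P036.Cells

/-!
Large additive energy gives small triangles.
-/

namespace Vale.Agent.P036

open Finset
open scoped Pointwise

/-- Few differences give a small triangle. -/
theorem triangle_of_diffs {P : Finset (ℝ × ℝ)} (hP : InSquare P) (h3 : 3 ≤ P.card) {L : ℝ}
    (hL : ((P - P).card : ℝ) ≤ L * P.card) :
    HasTriangle P (600 * L ^ 3 / (P.card * Real.sqrt P.card)) := by
  classical
  have hne : P.Nonempty := card_pos.1 (by omega)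
  have hn : (0 : ℝ) < P.card := by exact_mod_cast hne.card_pos
  have hL1 : 1 ≤ L := by
    have h : (P.card : ℝ) ≤ (P - P).card := by exact_mod_cast card_le_card_sub_right hne
    nlinarith
  refine triangle_of_sums hP h3 (one_le_pow₀ hL1) ?_
  have h := pluennecke_ruzsa_inequality_nsmul_sub_nsmul_sub hne P 2 1
  rw [one_nsmul, two_nsmul] at h
  have h' : ((P + P - P).card : ℝ) ≤ (((P - P).card : ℝ) / P.card) ^ 3 * P.card := by
    have h2 := NNRat.cast_le (K := ℝ) |>.2 h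
    push_cast at h2
    exact h2
  refine h'.trans (mul_le_mul_of_nonneg_right (pow_le_pow_left₀ (by positivity) ?_ 3) hn.le)
  rw [div_le_iff₀ hn]
  exact hL

/-- Large additive energy gives a small triangle. -/
theorem triangle_of_energy {P : Finset (ℝ × ℝ)} (hP : InSquare P) (h3 : 3 ≤ P.card) {K : ℕ}
    (hE : P.card ^ 3 ≤ K * Finset.addEnergy P P) :
    HasTriangle P (2 ^ 90 * (K : ℝ) ^ 32 / (P.card * Real.sqrt P.card)) := by
  classical
  set n := P.card with hn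
  have hn0 : (0 : ℝ) < n := by exact_mod_cast (show 0 < n by omega)
  have hK : 0 < K := Nat.pos_of_ne_zero fun h => by
    rw [h, zero_mul] at hE
    exact absurd hE (not_le.2 (pow_pos (show 0 < n by omega) 3))
  have hK1 : (1 : ℝ) ≤ K := by exact_mod_cast hK
  rcases le_or_gt n (48 * K) with hsmall | hlarge
  · refine (trivial_triangle hP h3).mono (Subset.refl _) ?_
    rw [le_div_iff₀ (by positivity), one_mul]
    have h1 : (n : ℝ) ≤ 48 * K := by exact_mod_cast hsmall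
    have h2 : Real.sqrt n ≤ 48 * K := by
      rw [Real.sqrt_le_iff]
      exact ⟨by positivity, by nlinarith⟩
    calc (n : ℝ) * Real.sqrt n ≤ (48 * K) * (48 * K) :=
          mul_le_mul h1 h2 (by positivity) (by positivity)
      _ = 2304 * (K : ℝ) ^ 2 := by ring
      _ ≤ 2 ^ 90 * (K : ℝ) ^ 32 :=
          mul_le_mul (by norm_num) (pow_le_pow_right₀ hK1 (by norm_num)) (by positivity)
            (by positivity)
  obtain ⟨B, hBP, hsize, hdiff⟩ := Vale.Agent.P041.bsg_diff P K (card_pos.1 (by omega)) hK hE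
  have hB3 : 3 ≤ B.card := by
    have h1 : (48 : ℝ) * K < n := by exact_mod_cast hlarge
    have : (2 : ℝ) < B.card := by nlinarith
    exact_mod_cast this
  have hB : InSquare B := fun p hp => hP p (hBP hp)
  refine (triangle_of_diffs hB hB3 hdiff).mono hBP ?_
  set m : ℝ := (B.card : ℝ) with hm
  have hm0 : 0 < m := by rw [hm]; exact_mod_cast (show 0 < B.card by omega)
  have hsq : Real.sqrt n ≤ 4 * K * Real.sqrt m := by
    rw [Real.sqrt_le_iff]
    refine ⟨by positivity, ?_⟩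
    rw [mul_pow, Real.sq_sqrt hm0.le]
    nlinarith [mul_le_mul_of_nonneg_right hK1 (show 0 ≤ (K : ℝ) * m by positivity)]
  have hnm : (n : ℝ) * Real.sqrt n ≤ 64 * (K : ℝ) ^ 2 * (m * Real.sqrt m) :=
    (mul_le_mul hsize hsq (by positivity) (by positivity)).trans (le_of_eq (by ring))
  rw [div_le_div_iff₀ (by positivity) (by positivity)]
  calc 600 * ((2 : ℝ) ^ 24 * (K : ℝ) ^ 10) ^ 3 * ((n : ℝ) * Real.sqrt n)
      ≤ 600 * ((2 : ℝ) ^ 24 * (K : ℝ) ^ 10) ^ 3 * (64 * (K : ℝ) ^ 2 * (m * Real.sqrt m)) :=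
        mul_le_mul_of_nonneg_left hnm (by positivity)
    _ = 38400 * 2 ^ 72 * (K : ℝ) ^ 32 * (m * Real.sqrt m) := by ring
    _ ≤ 2 ^ 90 * (K : ℝ) ^ 32 * (m * Real.sqrt m) := by
        refine mul_le_mul_of_nonneg_right (mul_le_mul_of_nonneg_right ?_ (by positivity))
          (by positivity)
        norm_num

/-- Beating the exponent `7 / 6` for energy at least `n ^ (3 - 1 / 100)`. -/
theorem triangle_asymptotic : ∃ n0 : ℕ, ∀ P : Finset (ℝ × ℝ), InSquare P → n0 ≤ P.card →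
    (P.card : ℝ) ^ (3 - 1 / 100 : ℝ) ≤ (Finset.addEnergy P P : ℝ) →
      HasTriangle P ((P.card : ℝ) ^ (-(7 / 6 + 1 / 300) : ℝ)) := by
  classical
  obtain ⟨M, hM⟩ := exists_nat_ge (((2 : ℝ) ^ 122) ^ (100 : ℝ))
  refine ⟨max M 3, fun P hP hn hE => ?_⟩
  set n : ℝ := (P.card : ℝ) with hndef
  have h3 : 3 ≤ P.card := le_of_max_le_right hn
  have hn1 : 1 ≤ n := by rw [hndef]; exact_mod_cast (show 1 ≤ P.card by omega)
  have hn0 : 0 < n := by linarith
  have hnM : ((2 : ℝ) ^ 122) ^ (100 : ℝ) ≤ n :=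
    hM.trans (by rw [hndef]; exact_mod_cast le_of_max_le_left hn)
  set K : ℕ := ⌈n ^ (1 / 100 : ℝ)⌉₊ with hKdef
  have hp1 : 1 ≤ n ^ (1 / 100 : ℝ) := Real.one_le_rpow hn1 (by norm_num)
  have hKle : (K : ℝ) ≤ 2 * n ^ (1 / 100 : ℝ) := by
    have := Nat.ceil_lt_add_one (show 0 ≤ n ^ (1 / 100 : ℝ) by positivity)
    rw [← hKdef] at this
    linarith
  have hEK : P.card ^ 3 ≤ K * Finset.addEnergy P P := by
    have e : n ^ (1 / 100 : ℝ) * n ^ (3 - 1 / 100 : ℝ) = n ^ 3 := by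
      rw [← Real.rpow_add hn0, show (1 / 100 : ℝ) + (3 - 1 / 100) = ((3 : ℕ) : ℝ) by norm_num,
        Real.rpow_natCast]
    have h1 : n ^ 3 ≤ (K : ℝ) * (Finset.addEnergy P P : ℝ) := by
      rw [← e]
      exact mul_le_mul (Nat.le_ceil _) hE (by positivity) (Nat.cast_nonneg _)
    rw [hndef] at h1
    exact_mod_cast h1
  refine (triangle_of_energy hP h3 hEK).mono (Subset.refl _) ?_
  rw [← hndef, div_le_iff₀ (by positivity), Real.sqrt_eq_rpow]
  have e1 : n ^ (-(7 / 6 + 1 / 300) : ℝ) * (n * n ^ (1 / 2 : ℝ)) = n ^ (33 / 100 : ℝ) := by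
    nth_rewrite 2 [← Real.rpow_one n]
    rw [← Real.rpow_add hn0, ← Real.rpow_add hn0]
    norm_num
  have e2 : (2 : ℝ) ^ 122 ≤ n ^ (1 / 100 : ℝ) := by
    refine le_trans (le_of_eq ?_) (Real.rpow_le_rpow (by positivity) hnM (by norm_num))
    rw [← Real.rpow_mul (by positivity)]
    norm_num
  rw [e1]
  calc (2 : ℝ) ^ 90 * (K : ℝ) ^ 32 ≤ 2 ^ 90 * (2 * n ^ (1 / 100 : ℝ)) ^ 32 :=
        mul_le_mul_of_nonneg_left (pow_le_pow_left₀ (Nat.cast_nonneg _) hKle 32) (by positivity)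
    _ = 2 ^ 122 * (n ^ (1 / 100 : ℝ)) ^ 32 := by ring
    _ ≤ n ^ (1 / 100 : ℝ) * (n ^ (1 / 100 : ℝ)) ^ 32 :=
        mul_le_mul_of_nonneg_right e2 (by positivity)
    _ = n ^ (33 / 100 : ℝ) := by
        rw [← pow_succ', ← Real.rpow_natCast, ← Real.rpow_mul hn0.le]
        norm_num

end Vale.Agent.P036
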